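import Vale.Agent.P271.H43.Sorted
import Vale.Agent.P271.Filt.Lex
import Vale.Agent.P271.Filt.Quot

/-!
# P271 / TL : the sorted functional of a lexicographic refinement, two-level coefficients (helper507)

`G = α F + h` is a strict lexicographic refinement of `F`.  A basis adapted to `G` and sorted for
`G` is adapted to `F` and sorted for `F`, hence `S κ G - α * S κ F = ∑ κ_i h_i`.  For the two-level
coefficients `κ_i = c1 + (c2 if i is one of the last M indices)` this is at least
`c1 * (G.T - α * F.T) + c2 * (G.TQ P - α * F.TQ P)`, where `P = F.sub t` and `t` is the weight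
(for `F`) of the basis vector number `N - M`.
-/

namespace Vale.Agent.P271.H507

open Module Vale.Agent.P271.Filt Vale.Agent.P271.Filt.Wt Vale.Agent.P271.H43

variable {K : Type*} {V : Type*} [Field K] [AddCommGroup V] [Module K V]

section general

variable {F G : Wt K V} {h : V → ℝ} {α : ℝ}

/-- A basis adapted to the refinement is adapted to `F`. -/
theorem adapted_of_lex (hs : LexStrict F h α) (hG : ∀ x, x ≠ 0 → G.w x = α * F.w x + h x)
    {ι : Type*} {b : Basis ι K V} (hb : G.Adapted b) : F.Adapted b := by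
  intro x i hi
  have hx : x ≠ 0 := by rintro rfl; simp at hi
  by_contra hlt
  push Not at hlt
  have h1 := hs (b i) x (b.ne_zero i) hx hlt
  have h2 := hb x i hi
  rw [hG x hx, hG _ (b.ne_zero i)] at h2
  linarith

/-- A basis sorted for the refinement is sorted for `F`. -/
theorem antitone_of_lex (hs : LexStrict F h α) (hG : ∀ x, x ≠ 0 → G.w x = α * F.w x + h x)
    {ι : Type*} [Preorder ι] {b : Basis ι K V} (hb : Antitone fun i => G.w (b i)) :
    Antitone fun i => F.w (b i) := by
  intro i j hij
  by_contra hlt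
  push Not at hlt
  have h1 := hs (b i) (b j) (b.ne_zero i) (b.ne_zero j) hlt
  have h2 := hb hij
  simp only [hG _ (b.ne_zero _)] at h2
  linarith

end general

section dim

variable {F : Wt K V}

open Classical in
theorem finrank_sub {ι : Type*} [Fintype ι] {b : Basis ι K V} (hb : F.Adapted b) (a : ℝ) :
    finrank K (F.sub a) = (Finset.univ.filter (fun i => a ≤ F.w (b i))).card := by
  have hli : LinearIndependent K (fun j : {j : ι // a ≤ F.w (b j)} => b j) :=
    b.linearIndependent.comp _ Subtype.val_injective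
  have hset : F.sub a = Submodule.span K (Set.range (fun j : {j : ι // a ≤ F.w (b j)} => b j)) := by
    rw [hb.sub_eq_span]
    congr 1
    ext y
    constructor
    · rintro ⟨j, hj, rfl⟩
      exact ⟨⟨j, hj⟩, rfl⟩
    · rintro ⟨⟨j, hj⟩, rfl⟩
      exact ⟨j, hj, rfl⟩
  rw [hset, finrank_span_eq_card hli, Fintype.card_subtype]

open Classical in
theorem finrank_subGt {ι : Type*} [Fintype ι] {b : Basis ι K V} (hb : F.Adapted b) (a : ℝ) :
    finrank K (F.subGt a) = (Finset.univ.filter (fun i => a < F.w (b i))).card := by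
  have hli : LinearIndependent K (fun j : {j : ι // a < F.w (b j)} => b j) :=
    b.linearIndependent.comp _ Subtype.val_injective
  have hset : F.subGt a =
      Submodule.span K (Set.range (fun j : {j : ι // a < F.w (b j)} => b j)) := by
    apply le_antisymm
    · intro x hx
      by_cases hx0 : x = 0
      · rw [hx0]; exact Submodule.zero_mem _
      rw [← b.sum_repr x]
      refine Submodule.sum_mem _ fun i _ => ?_
      by_cases hi : b.repr x i = 0
      · rw [hi, zero_smul]; exact Submodule.zero_mem _
      · exact Submodule.smul_mem _ _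
          (Submodule.subset_span ⟨⟨i, (hx hx0).trans_le (hb x i hi)⟩, rfl⟩)
    · rw [Submodule.span_le]
      rintro _ ⟨⟨j, hj⟩, rfl⟩
      exact fun _ => hj
  rw [hset, finrank_span_eq_card hli, Fintype.card_subtype]

end dim

section sorted

variable [FiniteDimensional K V] {F G : Wt K V} {h : V → ℝ} {α : ℝ}

/-- The sorted functional of a strict lexicographic refinement. -/
theorem S_lex {κ : Fin (finrank K V) → ℝ} (hκ : Monotone κ) (hs : LexStrict F h α)
    (hG : ∀ x, x ≠ 0 → G.w x = α * F.w x + h x) {b : Basis (Fin (finrank K V)) K V}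
    (hb : G.Adapted b) (hanti : Antitone fun i => G.w (b i)) :
    S κ G - α * S κ F = ∑ i, κ i * h (b i) := by
  rw [S_eq_sum hκ hb hanti,
    S_eq_sum hκ (adapted_of_lex hs hG hb) (antitone_of_lex hs hG hanti), Finset.mul_sum,
    ← Finset.sum_sub_distrib]
  refine Finset.sum_congr rfl fun i _ => ?_
  rw [hG _ (b.ne_zero i)]
  ring

open Classical in
/-- The quotient total weights on a step of `F`, through a basis adapted to the refinement. -/
theorem TQ_lex (hs : LexStrict F h α) (hG : ∀ x, x ≠ 0 → G.w x = α * F.w x + h x)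
    {ι : Type*} [Fintype ι] {b : Basis ι K V} (hb : G.Adapted b) (t : ℝ) :
    G.TQ (F.sub t) - α * F.TQ (F.sub t) =
      ∑ i ∈ Finset.univ.filter (fun i => F.w (b i) < t), h (b i) := by
  have hF := adapted_of_lex hs hG hb
  have hc : Compat b (F.sub t) := (F.step_sub t).compat hF
  rw [TQ_eq_sum hb hc, TQ_eq_sum hF hc, Finset.mul_sum, ← Finset.sum_sub_distrib]
  have hset : Finset.univ.filter (fun i => b i ∉ F.sub t) =
      Finset.univ.filter (fun i => F.w (b i) < t) := by
    ext i
    simp only [Finset.mem_filter, Finset.mem_univ, true_and]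
    rw [F.mem_sub_of_ne (b.ne_zero i), not_le]
  rw [hset]
  refine Finset.sum_congr rfl fun i _ => ?_
  rw [hG _ (b.ne_zero i)]
  ring

/-- The total weights. -/
theorem T_lex (hs : LexStrict F h α) (hG : ∀ x, x ≠ 0 → G.w x = α * F.w x + h x)
    {ι : Type*} [Fintype ι] {b : Basis ι K V} (hb : G.Adapted b) :
    G.T - α * F.T = ∑ i, h (b i) := by
  rw [← hb.sum_eq, ← (adapted_of_lex hs hG hb).sum_eq, Finset.mul_sum, ← Finset.sum_sub_distrib]
  refine Finset.sum_congr rfl fun i _ => ?_
  rw [hG _ (b.ne_zero i)]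
  ring

/-- The two-level coefficients: `c1` everywhere, plus `c2` on the last `M` indices. -/
noncomputable def kap (N M : ℕ) (c1 c2 : ℝ) (i : Fin N) : ℝ :=
  c1 + if N - M ≤ (i : ℕ) then c2 else 0

theorem kap_mono {N M : ℕ} {c1 c2 : ℝ} (h2 : 0 ≤ c2) : Monotone (kap N M c1 c2) := by
  intro i j hij
  have hij' : (i : ℕ) ≤ (j : ℕ) := hij
  unfold kap
  by_cases hi : N - M ≤ (i : ℕ)
  · rw [if_pos hi, if_pos (hi.trans hij')]
  · rw [if_neg hi]
    split_ifs <;> linarith

theorem kap_nonneg {N M : ℕ} {c1 c2 : ℝ} (h1 : 0 ≤ c1) (h2 : 0 ≤ c2) (i : Fin N) :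
    0 ≤ kap N M c1 c2 i := by
  unfold kap
  split_ifs <;> linarith

theorem c1_le_kap {N M : ℕ} {c1 c2 : ℝ} (h2 : 0 ≤ c2) (i : Fin N) : c1 ≤ kap N M c1 c2 i := by
  unfold kap
  split_ifs <;> linarith

/-- The total mass of the two-level coefficients. -/
theorem sum_kap {N M : ℕ} (hM : M ≤ N) (c1 c2 : ℝ) :
    ∑ i, kap N M c1 c2 i = N * c1 + M * c2 := by
  unfold kap
  rw [Finset.sum_add_distrib, Finset.sum_const, Finset.card_univ, Fintype.card_fin, nsmul_eq_mul,
    Fin.sum_univ_eq_sum_range (fun i => if N - M ≤ i then c2 else 0) N, ← Finset.sum_filter,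
    Finset.sum_const, nsmul_eq_mul]
  have hcard : ((Finset.range N).filter (fun i => N - M ≤ i)).card = M := by
    have : (Finset.range N).filter (fun i => N - M ≤ i) = Finset.Ico (N - M) N := by
      ext i
      simp only [Finset.mem_filter, Finset.mem_range, Finset.mem_Ico]
      omega
    rw [this, Nat.card_Ico]
    omega
  rw [hcard]

theorem kap_le {N M : ℕ} {c1 c2 : ℝ} (h2 : 0 ≤ c2) (i : Fin N) :
    kap N M c1 c2 i ≤ c1 + c2 := by
  unfold kap
  split_ifs <;> linarith

/-- The sorted functional with two-level coefficients. -/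
theorem S_kap (M : ℕ) (c1 c2 : ℝ) (F : Wt K V) :
    S (kap (finrank K V) M c1 c2) F =
      c1 * F.T + c2 * ∑ i with finrank K V - M ≤ ((i : Fin (finrank K V)) : ℕ),
        F.w (antib F i) := by
  unfold S kap
  rw [← (adapted_antib F).sum_eq, Finset.mul_sum, Finset.mul_sum, Finset.sum_filter,
    ← Finset.sum_add_distrib]
  refine Finset.sum_congr rfl fun i _ => ?_
  split_ifs <;> ring

/-- **TL**: the two-level functional of a strict lexicographic refinement. Here `i0` is the index
number `N - M`, and `t = F.w (b i0)`. -/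
theorem two_level {M : ℕ} {c1 c2 : ℝ} (h2 : 0 ≤ c2)
    (hh : ∀ x, x ≠ 0 → 0 ≤ h x) (hs : LexStrict F h α)
    (hG : ∀ x, x ≠ 0 → G.w x = α * F.w x + h x) {b : Basis (Fin (finrank K V)) K V}
    (hb : G.Adapted b) (hanti : Antitone fun i => G.w (b i))
    (i0 : Fin (finrank K V)) (hi0 : (i0 : ℕ) = finrank K V - M) :
    c1 * (G.T - α * F.T) +
        c2 * (G.TQ (F.sub (F.w (b i0))) - α * F.TQ (F.sub (F.w (b i0)))) ≤
      S (kap (finrank K V) M c1 c2) G - α * S (kap (finrank K V) M c1 c2) F := by
  classical
  rw [S_lex (kap_mono h2) hs hG hb hanti, T_lex hs hG hb, TQ_lex hs hG hb]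
  have hF := antitone_of_lex hs hG hanti
  have hsum : ∑ i, kap (finrank K V) M c1 c2 i * h (b i) = c1 * ∑ i, h (b i) +
      c2 * ∑ i with finrank K V - M ≤ ((i : Fin (finrank K V)) : ℕ), h (b i) := by
    rw [Finset.mul_sum, Finset.mul_sum, Finset.sum_filter, ← Finset.sum_add_distrib]
    refine Finset.sum_congr rfl fun i _ => ?_
    unfold kap
    split_ifs <;> ring
  rw [hsum]
  have hle : ∑ i ∈ Finset.univ.filter (fun i => F.w (b i) < F.w (b i0)), h (b i) ≤
      ∑ i with finrank K V - M ≤ ((i : Fin (finrank K V)) : ℕ), h (b i) := by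
    refine Finset.sum_le_sum_of_subset_of_nonneg ?_ fun i _ _ => hh _ (b.ne_zero i)
    intro i hi
    simp only [Finset.mem_filter, Finset.mem_univ, true_and] at hi ⊢
    by_contra hlt
    push Not at hlt
    have h3 : i ≤ i0 := by
      rw [Fin.le_def, hi0]
      exact hlt.le
    exact absurd (hF h3) (not_le.2 hi)
  have := mul_le_mul_of_nonneg_left hle h2
  linarith

omit [FiniteDimensional K V] in
/-- Codimension bookkeeping: the step at the weight of index number `N - M` has codimension
less than `M`. -/
theorem lt_finrank_sub_add {b : Basis (Fin (finrank K V)) K V} (hb : F.Adapted b)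
    (hanti : Antitone fun i => F.w (b i)) {M : ℕ} (i0 : Fin (finrank K V))
    (hi0 : (i0 : ℕ) = finrank K V - M) : finrank K V < finrank K (F.sub (F.w (b i0))) + M := by
  classical
  rw [finrank_sub hb]
  have h1 : Finset.Iic i0 ⊆ Finset.univ.filter (fun i => F.w (b i0) ≤ F.w (b i)) := by
    intro i hi
    rw [Finset.mem_Iic] at hi
    rw [Finset.mem_filter]
    exact ⟨Finset.mem_univ _, hanti hi⟩
  have h2 := Finset.card_le_card h1
  rw [Fin.card_Iic] at h2
  omega

omit [FiniteDimensional K V] in
/-- ... and the next step has codimension at least `M`. -/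
theorem finrank_subGt_add_le {b : Basis (Fin (finrank K V)) K V} (hb : F.Adapted b)
    (hanti : Antitone fun i => F.w (b i)) {M : ℕ} (hM : M ≤ finrank K V)
    (i0 : Fin (finrank K V)) (hi0 : (i0 : ℕ) = finrank K V - M) :
    finrank K (F.subGt (F.w (b i0))) + M ≤ finrank K V := by
  classical
  rw [finrank_subGt hb]
  have h1 : Finset.univ.filter (fun i => F.w (b i0) < F.w (b i)) ⊆ Finset.Iio i0 := by
    intro i hi
    rw [Finset.mem_filter] at hi
    rw [Finset.mem_Iio]
    by_contra hlt
    push Not at hlt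
    exact absurd (hanti hlt) (not_le.2 hi.2)
  have h2 := Finset.card_le_card h1
  rw [Fin.card_Iio] at h2
  omega

/-- **TL, packaged**: for `1 ≤ M ≤ N` there is a weight `t` with
`codim (F.sub t) < M ≤ codim (F.subGt t)` and the two-level inequality for every strict
lexicographic refinement. -/
theorem exists_two_level (F : Wt K V) {M : ℕ} (hM1 : 1 ≤ M) (hM : M ≤ finrank K V) :
    ∃ t : ℝ, (∃ x : V, x ≠ 0 ∧ F.w x = t) ∧
      finrank K V < finrank K (F.sub t) + M ∧ finrank K (F.subGt t) + M ≤ finrank K V ∧
      ∀ (G : Wt K V) (h : V → ℝ) (α c1 c2 : ℝ), 0 ≤ c2 → (∀ x, x ≠ 0 → 0 ≤ h x) →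
        LexStrict F h α → (∀ x, x ≠ 0 → G.w x = α * F.w x + h x) →
        c1 * (G.T - α * F.T) + c2 * (G.TQ (F.sub t) - α * F.TQ (F.sub t)) ≤
          S (kap (finrank K V) M c1 c2) G - α * S (kap (finrank K V) M c1 c2) F := by
  have hlt : finrank K V - M < finrank K V := by omega
  let i0 : Fin (finrank K V) := ⟨finrank K V - M, hlt⟩
  have hi0 : (i0 : ℕ) = finrank K V - M := rfl
  refine ⟨F.w (antib F i0), ⟨antib F i0, (antib F).ne_zero i0, rfl⟩,
    lt_finrank_sub_add (adapted_antib F) (antitone_antib F) i0 hi0,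
    finrank_subGt_add_le (adapted_antib F) (antitone_antib F) hM i0 hi0, ?_⟩
  intro G h α c1 c2 h2 hh hs hG
  have hFb := adapted_of_lex hs hG (adapted_antib G)
  have hFanti := antitone_of_lex hs hG (antitone_antib G)
  have key := two_level (c1 := c1) h2 hh hs hG (adapted_antib G) (antitone_antib G) i0 hi0
  -- the value at the index does not depend on the adapted sorted basis
  have heq : F.w (antib G i0) = F.w (antib F i0) := by
    classical
    rcases lt_trichotomy (F.w (antib G i0)) (F.w (antib F i0)) with hlt' | heq | hlt'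
    · exfalso
      have h1 := lt_finrank_sub_add (adapted_antib F) (antitone_antib F) i0 hi0
      have h3 := finrank_subGt_add_le hFb hFanti hM i0 hi0
      have h4 : finrank K (F.sub (F.w (antib F i0))) ≤ finrank K (F.subGt (F.w (antib G i0))) :=
        Submodule.finrank_mono fun x hx hx0 => hlt'.trans_le (hx hx0)
      omega
    · exact heq
    · exfalso
      have h1 := lt_finrank_sub_add hFb hFanti i0 hi0
      have h3 := finrank_subGt_add_le (adapted_antib F) (antitone_antib F) hM i0 hi0
      have h4 : finrank K (F.sub (F.w (antib G i0))) ≤ finrank K (F.subGt (F.w (antib F i0))) :=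
        Submodule.finrank_mono fun x hx hx0 => hlt'.trans_le (hx hx0)
      omega
  rw [heq] at key
  exact key

end sorted

end Vale.Agent.P271.H507
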