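import Vale.Agent.P271.H507.TLB

/-!
# P271 / K3W : the two-level inequality at one level, in numbers (helper507)
-/

namespace Vale.Agent.P271.H507

open Module Vale.Agent.P271.Filt Vale.Agent.P271.Filt.Wt Vale.Agent.P271.H43

variable {K : Type*} {V : Type*} [Field K] [AddCommGroup V] [Module K V] [FiniteDimensional K V]

/-- numbers of the main case -/
theorem num_main {m N M g ε D θ A B : ℝ} (hm : 0 < m) (hN : 0 < N) (hM : 0 < M)
    (hθ0 : 0 ≤ θ) (hθ1 : θ ≤ 1) (hA : (1 - ε) * D * (m * N) ≤ A)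
    (hB : (1 - ε) * D * g * (m * M) ≤ B) :
    D * (1 - ε) * (1 + θ * (g - 1)) ≤ (1 - θ) / (m * N) * A + θ / (m * M) * B := by
  have h1 : (1 - θ) * ((1 - ε) * D) ≤ (1 - θ) / (m * N) * A := by
    have := mul_le_mul_of_nonneg_left hA (div_nonneg (sub_nonneg.2 hθ1) (mul_pos hm hN).le)
    refine le_trans (le_of_eq ?_) this
    field_simp
  have h2 : θ * ((1 - ε) * D * g) ≤ θ / (m * M) * B := by
    have := mul_le_mul_of_nonneg_left hB (div_nonneg hθ0 (mul_pos hm hM).le)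
    refine le_trans (le_of_eq ?_) this
    field_simp
  have e : D * (1 - ε) * (1 + θ * (g - 1)) =
      (1 - θ) * ((1 - ε) * D) + θ * ((1 - ε) * D * g) := by ring
  rw [e]
  exact add_le_add h1 h2

/-- numbers of the degenerate case -/
theorem num_big {m N M g ε D θ θ₁ A B C : ℝ} (hm : 0 < m) (hN : 0 < N) (hM : 0 < M)
    (hθ0 : 0 ≤ θ) (hθ : θ ≤ θ₁) (hθ1 : θ₁ < 1) (hε0 : 0 ≤ ε) (hε1 : ε ≤ 1) (hD0 : 0 ≤ D)
    (hD1 : D ≤ 1) (hg : 1 ≤ g) (hC : g / (1 - θ₁) ≤ C) (hA : C * (m * N) ≤ A) (hB : 0 ≤ B) :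
    D * (1 - ε) * (1 + θ * (g - 1)) ≤ (1 - θ) / (m * N) * A + θ / (m * M) * B := by
  have hθ1' : 0 < 1 - θ₁ := by linarith
  have h1 : g ≤ (1 - θ) * C := by
    rw [div_le_iff₀ hθ1'] at hC
    have hC0 : 0 ≤ C := by
      by_contra hneg
      push Not at hneg
      nlinarith
    nlinarith
  have h2 : (1 - θ) * C ≤ (1 - θ) / (m * N) * A := by
    have := mul_le_mul_of_nonneg_left hA (div_nonneg (show (0:ℝ) ≤ 1 - θ by linarith)
      (mul_pos hm hN).le)
    refine le_trans (le_of_eq ?_) this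
    field_simp
  have h3 : 0 ≤ θ / (m * M) * B := mul_nonneg (div_nonneg hθ0 (mul_pos hm hM).le) hB
  have h4 : D * (1 - ε) * (1 + θ * (g - 1)) ≤ g := by
    have h5 : D * (1 - ε) ≤ 1 := by nlinarith
    have h6 : 0 ≤ D * (1 - ε) := mul_nonneg hD0 (by linarith)
    have h7 : 1 + θ * (g - 1) ≤ g := by nlinarith
    have h8 : 0 ≤ 1 + θ * (g - 1) := by nlinarith
    calc D * (1 - ε) * (1 + θ * (g - 1)) ≤ 1 * (1 + θ * (g - 1)) :=
          mul_le_mul_of_nonneg_right h5 h8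
      _ ≤ g := by linarith
  linarith

open Classical in
/-- **The two-level inequality at one level.** `Dd = d / (n + 1)`, `g` = the gain. -/
theorem level {F : Wt K V} {M : ℕ} (hM1 : 1 ≤ M) (hM : M ≤ finrank K V) {m g ε Dd θ₁ δ C : ℝ}
    (hm : 0 < m) (hθ1 : θ₁ < 1) (hε0 : 0 ≤ ε) (hε1 : ε ≤ 1) (hD0 : 0 ≤ Dd) (hD1 : Dd ≤ 1)
    (hg : 1 ≤ g) (hC : g / (1 - θ₁) ≤ C)
    {b : Basis (Fin (finrank K V)) K V} (hb : F.Adapted b) {e : Fin (finrank K V) → ℝ}
    (he : ∀ i, 0 ≤ e i) {α : ℝ}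
    (hα : ∀ i j, F.w (b i) < F.w (b j) → α * F.w (b i) + e i ≤ α * F.w (b j) + e j)
    (H : ((∀ t : ℝ, (finrank K (F.sub t) : ℝ) - finrank K (F.subGt t) ≤ δ * finrank K V) ∧
        (1 - ε) * Dd * (m * finrank K V) ≤ ∑ i, e i ∧
        ∀ t : ℝ, (finrank K V : ℝ) - finrank K (F.sub t) ≤ M →
          (M : ℝ) ≤ (finrank K V : ℝ) - finrank K (F.sub t) + δ * finrank K V →
          (1 - ε) * Dd * g * (m * M) ≤ ∑ i with F.w (b i) < t, e i) ∨
      C * (m * finrank K V) ≤ ∑ i, e i) {θ : ℝ} (hθ0 : 0 ≤ θ) (hθ : θ ≤ θ₁) :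
    Dd * (1 - ε) * (1 + θ * (g - 1)) ≤
      S (kap (finrank K V) M ((1 - θ) / (m * finrank K V)) (θ / (m * M)))
          (ofBasis b fun i => α * F.w (b i) + e i) -
        α * S (kap (finrank K V) M ((1 - θ) / (m * finrank K V)) (θ / (m * M))) F := by
  obtain ⟨t, -, h1, h2, H2⟩ := exists_two_level_basis F hM1 hM
  have hN : (0 : ℝ) < finrank K V := by
    have : 0 < finrank K V := lt_of_lt_of_le hM1 hM
    exact_mod_cast this
  have hMR : (0 : ℝ) < M := by exact_mod_cast hM1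
  refine le_trans ?_ (H2 b hb e he α _ _ (div_nonneg hθ0 (mul_pos hm hMR).le) hα)
  rcases H with ⟨hblock, hA, hB⟩ | hbig
  · refine num_main hm hN hMR hθ0 (hθ.trans hθ1.le) hA (hB t ?_ ?_)
    · have h3 : (finrank K V : ℝ) < finrank K (F.sub t) + M := by exact_mod_cast h1
      linarith
    · have h3 : (finrank K (F.subGt t) : ℝ) + M ≤ finrank K V := by exact_mod_cast h2
      have h4 := hblock t
      linarith
  · exact num_big hm hN hMR hθ0 hθ hθ1 hε0 hε1 hD0 hD1 hg hC hbig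
      (Finset.sum_nonneg fun i _ => he i)

end Vale.Agent.P271.H507
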