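import Vale.Agent.P271.H507.TL

/-!
# P271 / TLB : the two-level inequality for refinements given on a basis (helper507)

`G = ofBasis b (α F(b_i) + e_i)`, `b` adapted to `F`, `e ≥ 0`, `α` large.
-/

namespace Vale.Agent.P271.H507

open Module Vale.Agent.P271.Filt Vale.Agent.P271.Filt.Wt Vale.Agent.P271.H43

variable {K : Type*} {V : Type*} [Field K] [AddCommGroup V] [Module K V]

/-- A permutation that sorts `l` decreasingly and breaks ties by `e`, decreasingly. -/
theorem exists_sort_lex {N : ℕ} (l e : Fin N → ℝ) :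
    ∃ σ : Fin N ≃ Fin N, (Antitone fun i => l (σ i)) ∧
      ∀ i j, i ≤ j → l (σ i) = l (σ j) → e (σ j) ≤ e (σ i) := by
  let f : Fin N → ℝ ×ₗ ℝ := fun i => toLex (-l i, -e i)
  have hσ : Monotone (f ∘ Tuple.sort f) := Tuple.monotone_sort f
  refine ⟨Tuple.sort f, ?_, ?_⟩
  · intro i j hij
    have h := hσ hij
    simp only [Function.comp_apply, f, Prod.Lex.toLex_le_toLex] at h
    rcases h with h | ⟨h, -⟩
    · simp only
      linarith
    · simp only
      linarith
  · intro i j hij heq
    have h := hσ hij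
    simp only [Function.comp_apply, f, Prod.Lex.toLex_le_toLex] at h
    rcases h with h | ⟨-, h⟩
    · exact absurd h (by rw [heq]; exact lt_irrefl _)
    · linarith

/-- For large `α` the order of `α l_i + e_i` refines the order of `l_i`. -/
theorem exists_alpha_fin {ι : Type*} [Finite ι] (l e : ι → ℝ) :
    ∃ α0 : ℝ, 0 ≤ α0 ∧ ∀ α, α0 ≤ α → ∀ i j, l i < l j → α * l i + e i ≤ α * l j + e j := by
  classical
  have := Fintype.ofFinite ι
  obtain ⟨B, hB⟩ := ((Finset.univ : Finset (ι × ι)).image
    (fun p => (e p.1 - e p.2) / (l p.2 - l p.1))).bddAbove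
  refine ⟨max B 0, le_max_right _ _, fun α hα i j hij => ?_⟩
  have h1 : (e i - e j) / (l j - l i) ≤ B :=
    hB (by
      simp only [Finset.coe_image, Finset.coe_univ, Set.image_univ, Set.mem_range]
      exact ⟨(i, j), rfl⟩)
  have h2 : (e i - e j) / (l j - l i) ≤ α := h1.trans ((le_max_left _ _).trans hα)
  rw [div_le_iff₀ (by linarith)] at h2
  linarith

variable [FiniteDimensional K V] {F : Wt K V}

/-- The sorted functional of a refinement given on a basis. -/
theorem S_refine {κ : Fin (finrank K V) → ℝ} (hκ : Monotone κ)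
    {b : Basis (Fin (finrank K V)) K V} (hb : F.Adapted b) (e : Fin (finrank K V) → ℝ) {α : ℝ}
    (hα : ∀ i j, F.w (b i) < F.w (b j) → α * F.w (b i) + e i ≤ α * F.w (b j) + e j) :
    ∃ σ : Fin (finrank K V) ≃ Fin (finrank K V), (Antitone fun i => F.w (b (σ i))) ∧
      S κ (ofBasis b fun i => α * F.w (b i) + e i) - α * S κ F = ∑ i, κ i * e (σ i) := by
  obtain ⟨σ, h1, h2⟩ := exists_sort_lex (fun i => F.w (b i)) e
  refine ⟨σ, h1, ?_⟩
  have hbσ : ∀ i, (b.reindex σ.symm) i = b (σ i) := fun i => by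
    rw [Basis.reindex_apply, Equiv.symm_symm]
  have hG := (ofBasis_adapted b fun i => α * F.w (b i) + e i).reindex σ.symm
  have hanti : Antitone fun i =>
      (ofBasis b fun i => α * F.w (b i) + e i).w ((b.reindex σ.symm) i) := by
    intro i j hij
    simp only [hbσ, ofBasis_basis]
    rcases (h1 hij).lt_or_eq with hlt | heq
    · exact hα _ _ hlt
    · have := h2 i j hij heq.symm
      simp only at heq
      rw [heq]
      linarith
  rw [S_eq_sum hκ hG hanti, S_eq_sum hκ (hb.reindex σ.symm) (by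
    intro i j hij
    simp only [hbσ]
    exact h1 hij), Finset.mul_sum, ← Finset.sum_sub_distrib]
  refine Finset.sum_congr rfl fun i _ => ?_
  rw [hbσ, ofBasis_basis]
  ring

open Classical in
/-- **TL, basis form**: for `1 ≤ M ≤ N` there is a weight `t` of `F` with
`codim (F.sub t) < M ≤ codim (F.subGt t)` and the two-level inequality for every refinement
`ofBasis b (α F(b_i) + e_i)`. -/
theorem exists_two_level_basis (F : Wt K V) {M : ℕ} (hM1 : 1 ≤ M) (hM : M ≤ finrank K V) :
    ∃ t : ℝ, (∃ x : V, x ≠ 0 ∧ F.w x = t) ∧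
      finrank K V < finrank K (F.sub t) + M ∧ finrank K (F.subGt t) + M ≤ finrank K V ∧
      ∀ (b : Basis (Fin (finrank K V)) K V), F.Adapted b → ∀ (e : Fin (finrank K V) → ℝ),
        (∀ i, 0 ≤ e i) → ∀ α c1 c2 : ℝ, 0 ≤ c2 →
        (∀ i j, F.w (b i) < F.w (b j) → α * F.w (b i) + e i ≤ α * F.w (b j) + e j) →
        c1 * ∑ i, e i + c2 * ∑ i with F.w (b i) < t, e i ≤
          S (kap (finrank K V) M c1 c2) (ofBasis b fun i => α * F.w (b i) + e i) -
            α * S (kap (finrank K V) M c1 c2) F := by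
  have hlt : finrank K V - M < finrank K V := by omega
  let i0 : Fin (finrank K V) := ⟨finrank K V - M, hlt⟩
  have hi0 : (i0 : ℕ) = finrank K V - M := rfl
  refine ⟨F.w (antib F i0), ⟨antib F i0, (antib F).ne_zero i0, rfl⟩,
    lt_finrank_sub_add (adapted_antib F) (antitone_antib F) i0 hi0,
    finrank_subGt_add_le (adapted_antib F) (antitone_antib F) hM i0 hi0, ?_⟩
  intro b hb e he α c1 c2 h2 hα
  obtain ⟨σ, hanti, hS⟩ := S_refine (kap_mono (N := finrank K V) (M := M) (c1 := c1) h2) hb e hα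
  rw [hS]
  -- the value at the index does not depend on the adapted sorted basis
  have hb' := hb.reindex σ.symm
  have hbσ : ∀ i, (b.reindex σ.symm) i = b (σ i) := fun i => by
    rw [Basis.reindex_apply, Equiv.symm_symm]
  have hanti' : Antitone fun i => F.w ((b.reindex σ.symm) i) := by
    intro i j hij
    simp only [hbσ]
    exact hanti hij
  have heq : F.w ((b.reindex σ.symm) i0) = F.w (antib F i0) := by
    rcases lt_trichotomy (F.w ((b.reindex σ.symm) i0)) (F.w (antib F i0)) with hlt' | heq | hlt'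
    · exfalso
      have h1 := lt_finrank_sub_add (adapted_antib F) (antitone_antib F) i0 hi0
      have h3 := finrank_subGt_add_le hb' hanti' hM i0 hi0
      have h4 : finrank K (F.sub (F.w (antib F i0))) ≤
          finrank K (F.subGt (F.w ((b.reindex σ.symm) i0))) :=
        Submodule.finrank_mono fun x hx hx0 => hlt'.trans_le (hx hx0)
      omega
    · exact heq
    · exfalso
      have h1 := lt_finrank_sub_add hb' hanti' i0 hi0
      have h3 := finrank_subGt_add_le (adapted_antib F) (antitone_antib F) hM i0 hi0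
      have h4 : finrank K (F.sub (F.w ((b.reindex σ.symm) i0))) ≤
          finrank K (F.subGt (F.w (antib F i0))) :=
        Submodule.finrank_mono fun x hx hx0 => hlt'.trans_le (hx hx0)
      omega
  rw [hbσ] at heq
  have hsum : ∑ i, kap (finrank K V) M c1 c2 i * e (σ i) = c1 * ∑ i, e i +
      c2 * ∑ i with finrank K V - M ≤ ((i : Fin (finrank K V)) : ℕ), e (σ i) := by
    rw [← Equiv.sum_comp σ e, Finset.mul_sum, Finset.mul_sum, Finset.sum_filter,
      ← Finset.sum_add_distrib]
    refine Finset.sum_congr rfl fun i _ => ?_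
    unfold kap
    split_ifs <;> ring
  rw [hsum]
  have hre : ∑ i with F.w (b i) < F.w (antib F i0), e i =
      ∑ i with F.w (b (σ i)) < F.w (antib F i0), e (σ i) := by
    rw [Finset.sum_filter, Finset.sum_filter,
      ← Equiv.sum_comp σ (fun i => if F.w (b i) < F.w (antib F i0) then e i else 0)]
  have hle : ∑ i with F.w (b (σ i)) < F.w (antib F i0), e (σ i) ≤
      ∑ i with finrank K V - M ≤ ((i : Fin (finrank K V)) : ℕ), e (σ i) := by
    refine Finset.sum_le_sum_of_subset_of_nonneg ?_ fun i _ _ => he _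
    intro i hi
    simp only [Finset.mem_filter, Finset.mem_univ, true_and] at hi ⊢
    by_contra hlt''
    push Not at hlt''
    have h3 : i ≤ i0 := by
      rw [Fin.le_def, hi0]
      exact hlt''.le
    rw [← heq] at hi
    exact absurd (hanti h3) (not_le.2 hi)
  rw [hre]
  have := mul_le_mul_of_nonneg_left hle h2
  linarith

open Classical in
/-- **The level inequality**: if `F` is minimal, i.e. `r * S G ≤ a G` for all nonnegative `G` in the
domain `Dm` and `a F ≤ r * S F`, and the refinements `ofBasis b (α F(b_i) + e_i)` satisfy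
`a ≤ α * a F + d` for large `α`, then `r * (c1 * ∑ e_i + c2 * ∑_{F(b_i) < t} e_i) ≤ d`. -/
theorem exists_level (F : Wt K V) {M : ℕ} (hM1 : 1 ≤ M) (hM : M ≤ finrank K V) :
    ∃ t : ℝ, (∃ x : V, x ≠ 0 ∧ F.w x = t) ∧
      finrank K V < finrank K (F.sub t) + M ∧ finrank K (F.subGt t) + M ≤ finrank K V ∧
      ∀ (Dm : Wt K V → Prop) (a : Wt K V → ℝ) (r c1 c2 d : ℝ), 0 ≤ c2 → 0 ≤ r →
        (∀ G, Dm G → r * S (kap (finrank K V) M c1 c2) G ≤ a G) →
        a F ≤ r * S (kap (finrank K V) M c1 c2) F →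
        ∀ (b : Basis (Fin (finrank K V)) K V), F.Adapted b → ∀ (e : Fin (finrank K V) → ℝ),
          (∀ i, 0 ≤ e i) → ∀ α1 : ℝ,
          (∀ α, α1 ≤ α → Dm (ofBasis b fun i => α * F.w (b i) + e i) ∧
            a (ofBasis b fun i => α * F.w (b i) + e i) ≤ α * a F + d) →
          r * (c1 * ∑ i, e i + c2 * ∑ i with F.w (b i) < t, e i) ≤ d := by
  obtain ⟨t, ht, h1, h2, H⟩ := exists_two_level_basis F hM1 hM
  refine ⟨t, ht, h1, h2, ?_⟩
  intro Dm a r c1 c2 d hc2 hr hmin hF b hb e he α1 hα
  obtain ⟨α0, hα0, hα0'⟩ := exists_alpha_fin (fun i => F.w (b i)) e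
  have hle1 : α1 ≤ max α1 α0 := le_max_left _ _
  have hle0 : α0 ≤ max α1 α0 := le_max_right _ _
  have hnn : 0 ≤ max α1 α0 := hα0.trans hle0
  have key := H b hb e he (max α1 α0) c1 c2 hc2 (hα0' _ hle0)
  obtain ⟨hD, hup⟩ := hα _ hle1
  have hlow := hmin _ hD
  have h3 := mul_le_mul_of_nonneg_left key hr
  have h4 := mul_le_mul_of_nonneg_left hF hnn
  nlinarith [h3, h4, hlow, hup]

end Vale.Agent.P271.H507
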