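import Vale.Agent.P271.Main.CSys
import Vale.Agent.P271.H177.WCount
import Vale.Agent.P271.Grow.GrowProp
import Vale.Agent.P271.H58.Geo
import Vale.Agent.P271.H507.TLB
import Vale.Agent.P271.Deg.Asy

/-!
# P271 / K3W : the field `k3w` of `FreeBlocks` (helper507)

From the output of the blocks K3OUT (`K3Fin`) and GROW (`GrowV`) and the weighted count `H177.W`:
if the centre of a minimiser is not the point `z`, then `R (1 + θ g₀) (1 - ε) ≤ n + 1`.
-/

set_option linter.all false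

namespace Vale.Agent.P271.H507

open Module Finset Filter Topology
open Vale.Agent.P271.Filt Vale.Agent.P271.Filt.Wt Vale.Agent.P271.H43 Vale.Agent.P271.Sch
  Vale.Agent.P271.Inst Vale.Agent.P271.Zorn Vale.Agent.P271.H84 Vale.Agent.P271.Main
  Vale.Agent.P271.Chain Vale.Agent.P271.Deg Vale.Agent.P271.Ver
open Vale.Agent.P271.Drop (hilb)

variable {n : ℕ} {C : GCone n}

/-- **K3OUT** in Veronese units. -/
def K3Fin [∀ k, FiniteDimensional ℂ (C.A k)] (S : CSys C) (z : NVPt C) (m1 r1 : ℕ) : Prop :=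
  ∀ (T : ℕ) (v : HM C → ℝ) (c : ℝ), (S.D z).Sat v c →
    (∀ f : HM C, z.1 (f : C.R) ≠ 0 → v f = 0) → ∀ hv : HVal C.A (vR v), hv.rval.P ≠ pz z.1 →
    ∀ d : ℕ, 1 ≤ d → d ≤ n → (∃ D, 1 ≤ D ∧ TwoSided d D (hilb (VA C m1) hv.rval.P)) →
    ∃ (b : Basis (Fin (finrank ℂ (VA C m1 T))) ℂ (VA C m1 T))
      (e : Fin (finrank ℂ (VA C m1 T)) → ℝ) (α₁ : ℝ),
      (hv.rval.wt (VA C m1 T)).Adapted b ∧ (∀ i, 0 ≤ e i) ∧
      (∀ α, α₁ ≤ α → Dom (Hz C z.1 m1 T) (ofBasis b fun i => α * hv.ext (b i) + e i) ∧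
        S.a z m1 T (ofBasis b fun i => α * hv.ext (b i) + e i) ≤ α * c + d) ∧
      ∀ (t : ℝ) (s k : ℕ), k * (s + r1) ≤ T →
        (d : ℝ) * ((d.factorial : ℝ) ^ ((1 : ℝ) / d)) *
          ((hilb (VA C m1) hv.rval.P s : ℝ) ^ ((1 : ℝ) / d)) *
          ∑ j ∈ range k, ((finrank ℂ (VA C m1 (T - (j + 1) * (s + r1))) : ℝ) -
            finrank ℂ ((hv.rval.wt (VA C m1 (T - (j + 1) * (s + r1)))).sub t)) -
          (d + 1) * ((finrank ℂ (VA C m1 T) : ℝ) - finrank ℂ ((hv.rval.wt (VA C m1 T)).sub t)) ≤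
        ∑ i, if hv.ext (b i) < t then e i else 0

/-- **GROW**: the growth property of the steps of all valuations. -/
def GrowV (C : GCone n) (m1 r : ℕ) : Prop :=
  ∀ (v : C.R → ℝ) (h : RVal v) (t : ℝ),
    Grow.GrowOk n (fun M => finrank ℂ (VA C m1 M)) r
      (fun M => finrank ℂ ((h.wt (VA C m1 M)).sub t))

section lemmas

variable {m1 : ℕ}

theorem hilb_eq_finrank {P : Ideal C.R} {M : ℕ} (h : ∀ x ∈ VA C m1 M, x ∈ P → x = 0) :
    hilb (VA C m1) P M = finrank ℂ (VA C m1 M) := by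
  have hinj : Function.Injective
      ((Ideal.Quotient.mkₐ ℂ P).toLinearMap.comp (VA C m1 M).subtype) := by
    rw [injective_iff_map_eq_zero]
    intro x hx
    have h1 : Ideal.Quotient.mk P (x : C.R) = 0 := hx
    exact Subtype.ext (h x x.2 (Ideal.Quotient.eq_zero_iff_mem.1 h1))
  have h1 := LinearMap.finrank_range_of_inj hinj
  rw [LinearMap.range_comp, Submodule.range_subtype] at h1
  exact h1

theorem tendsto_finrank (hm : VerOK C.A m1) {z : C.Pt} (hz : GCone.NV z) :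
    ∃ v₀ : ℝ, 0 < v₀ ∧
      Tendsto (fun T : ℕ => (finrank ℂ (VA C m1 T) : ℝ) / (T : ℝ) ^ n) atTop (𝓝 v₀) := by
  obtain ⟨d, ℓ, hℓ, hTS⟩ := H58.pd' hm hz (H58.hprime_bot (z := z))
  have hD : 1 ≤ ℓ * m1 ^ d := Nat.mul_pos hℓ (pow_pos hm.pos _)
  have hdn := H58.pd_bot hm hz hD hTS
  subst hdn
  have hN : ∀ T, hilb (VA C m1) (⊥ : Ideal C.R) T = finrank ℂ (VA C m1 T) := fun T =>
    hilb_eq_finrank fun x _ hx => (Submodule.mem_bot _).1 hx
  refine ⟨((ℓ * m1 ^ d : ℕ) : ℝ) / (d.factorial : ℝ), ?_, ?_⟩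
  · have : (0 : ℝ) < ((ℓ * m1 ^ d : ℕ) : ℝ) := by exact_mod_cast hD
    positivity
  · refine Hilb.tendsto_of_bounds hD (h := fun T => (finrank ℂ (VA C m1 T) : ℝ)) (fun t => ?_)
      (fun t => ?_)
    · have := TwoSided.low hTS t
      rw [hN] at this
      exact_mod_cast this
    · have := TwoSided.up hTS t
      rw [hN] at this
      exact_mod_cast this

theorem mul_mem_VA (M M' : ℕ) (g : C.R) (hg : g ∈ VA C m1 M') (s : C.R) (hs : s ∈ VA C m1 M) :
    g * s ∈ VA C m1 (M + M') := by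
  have h1 : g * s ∈ C.A (m1 * M' + m1 * M) :=
    SetLike.GradedMul.mul_mem (A := C.A) (i := m1 * M') (j := m1 * M) hg hs
  have e : m1 * M' + m1 * M = m1 * (M + M') := by ring
  rw [e] at h1
  exact h1

theorem exists_base (hm : VerOK C.A m1) {z : C.Pt} (hz : GCone.NV z) (a : ℕ) :
    ∃ y : VA C m1 a, z (y : C.R) ≠ 0 := by
  obtain ⟨s, hs, hs0⟩ := exists_ne_zero_of_NV hm hz
  have h1 : s ^ a ∈ C.A (a • m1) := SetLike.pow_mem_graded a hs
  have e : a • m1 = m1 * a := by rw [smul_eq_mul, mul_comm]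
  rw [e] at h1
  exact ⟨⟨s ^ a, h1⟩, by
    show z (s ^ a) ≠ 0
    rw [map_pow]
    exact pow_ne_zero _ hs0⟩

/-- beyond all values the steps vanish -/
theorem exists_large {v : C.R → ℝ} (h : RVal v) [∀ k, FiniteDimensional ℂ (C.A k)] (T : ℕ) :
    ∃ t : ℝ, ∀ M ≤ T, (∀ x : VA C m1 M, x ≠ 0 → (h.wt (VA C m1 M)).w x < t) ∧
      finrank ℂ ((h.wt (VA C m1 M)).sub t) = 0 := by
  have h1 : ∀ M : ℕ, ∃ B : ℝ, ∀ x : VA C m1 M, x ≠ 0 → (h.wt (VA C m1 M)).w x ≤ B := by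
    intro M
    obtain ⟨B, hB⟩ := ((h.wt (VA C m1 M)).finite_values).bddAbove
    exact ⟨B, fun x hx => hB ⟨x, hx, rfl⟩⟩
  choose B hB using h1
  obtain ⟨B', hB'⟩ := ((Finset.range (T + 1)).image B).bddAbove
  refine ⟨B' + 1, fun M hM => ?_⟩
  have h2 : B M ≤ B' := hB' (by
    rw [Finset.mem_coe, Finset.mem_image]
    exact ⟨M, Finset.mem_range.2 (by omega), rfl⟩)
  have h3 : ∀ x : VA C m1 M, x ≠ 0 → (h.wt (VA C m1 M)).w x < B' + 1 := fun x hx => by
    linarith [hB M x hx]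
  refine ⟨h3, ?_⟩
  have h4 : (h.wt (VA C m1 M)).sub (B' + 1) = ⊥ := by
    rw [eq_bot_iff]
    intro x hx
    rw [Submodule.mem_bot]
    by_contra h0
    exact absurd (hx h0) (not_le.2 (h3 x h0))
  rw [h4]
  exact finrank_bot ℂ _

end lemmas

/-- **Field `k3w`** of `FreeBlocks`. -/
theorem k3w [∀ k, FiniteDimensional ℂ (C.A k)] (S : CSys C) (z : NVPt C) {m1 r1 r : ℕ}
    (hm : VerOK C.A m1) (hn : 1 ≤ n) (hK : K3Fin S z m1 r1) (hG : GrowV C m1 r) :
    ∀ ε : ℝ, 0 < ε → ε < 1 → ∀ x₀ : ℝ, 0 < x₀ → x₀ < 1 → ∀ θ₁ : ℝ, θ₁ < 1 → ∃ T₀ : ℕ,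
    ∀ T ≥ T₀, ∀ θ : ℝ, 0 ≤ θ → θ ≤ θ₁ → ∀ R F P,
      Minim (Hz C z.1 m1 T) (S.a z m1 T) (kapT (m1 * T) x₀ θ (finrank ℂ (VA C m1 T))) R F →
      S.IsCen z m1 T F P → P ≠ pz z.1 →
      R * (1 + θ * (Main.gam n x₀ - 1)) * (1 - ε) ≤ n + 1 := by
  classical
  intro ε hε hε1 x₀ hx0 hx1 θ₁ hθ₁
  set N : ℕ → ℕ := fun M => finrank ℂ (VA C m1 M) with hNdef
  obtain ⟨v₀, hv₀, hN⟩ := tendsto_finrank hm z.2
  obtain ⟨r', hr', T₁, hW⟩ := H177.W.{0, 0} hn hv₀ hN (Grow.growOk_zero n N r) Grow.growOk_le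
    (Grow.growProp hn hv₀ hN r) (m₁ := m1) (r₁ := r1) (a0 := 0) hm.pos hx0 hx1 hε hε1 hθ₁
  refine ⟨max T₁ 1, ?_⟩
  intro T hT θ hθ0 hθ R F P hmin hcen hP
  have hTa : T₁ ≤ T := (le_max_left _ _).trans hT
  have hTd : 1 ≤ T := (le_max_right _ _).trans hT
  have hprime := hcen.hprime
  obtain ⟨v, hsat, h0, hF, hval, rfl⟩ := hcen
  rw [hmin.a_eq] at hsat
  -- the weights of `F`
  have hFw : ∀ x : VA C m1 T, x ≠ 0 → F.w x = (hval.rval.wt (VA C m1 T)).w x := by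
    intro x hx
    rw [hF x hx]
    exact (wt_mk hval x hx).symm
  -- the centre is not zero
  have hPbot : hval.rval.P ≠ ⊥ := by
    obtain ⟨x, hx, hpos⟩ := hmin.exists_pos
    intro hbot
    have h1 : (x : C.R) ∈ hval.rval.P := by
      intro _
      rw [hFw x hx] at hpos
      exact hpos
    rw [hbot, Submodule.mem_bot] at h1
    exact hx (Subtype.ext h1)
  obtain ⟨d, hd1, hdn, hdlt, ⟨D, hD1, hTS⟩, hlow⟩ := H58.pd_low hm z.2 hval.rval.P hprime hP
  have hd := hdlt hPbot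
  obtain ⟨b, e, α₁, hb, he, hα, hcount⟩ :=
    hK T v R hsat h0 hval hP d hd1 hdn ⟨D, hD1, hTS⟩
  obtain ⟨hNpos, hW⟩ := hW T hTa
  have hMpos : 1 ≤ msz x₀ (N T) := msz_pos hx0 hNpos
  have hMle : msz x₀ (N T) ≤ finrank ℂ (VA C m1 T) := msz_le hx1.le _
  set Fv : ∀ M, Wt ℂ (VA C m1 M) := fun M => hval.rval.wt (VA C m1 M) with hFv
  obtain ⟨t, -, ht1, ht2, htl⟩ := exists_two_level_basis (Fv T) hMpos hMle
  have hwb : ∀ i, (Fv T).w (b i) = hval.ext (b i) := fun i => rfl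
  -- the count
  have key := hW ℂ C.R (VA C m1) (fun M => inferInstance) mul_mem_VA Fv
    (fun M M' g s hg hs => by
      show hval.ext ((g : C.R) * s) = hval.ext s + hval.ext g
      rw [hval.rval.mul _ _ (fun h => hg (Subtype.ext h)) (fun h => hs (Subtype.ext h)), add_comm])
    (fun M x hx => hval.rval.nonneg _ fun h => hx (Subtype.ext h))
    (fun M => rfl)
    (fun a _ => by
      obtain ⟨y, hy⟩ := exists_base hm z.2 a
      have hy0 : y ≠ 0 := by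
        rintro rfl
        exact hy (by simp)
      refine ⟨y, hy0, ?_⟩
      show (hval.rval.wt (VA C m1 a)).w y = 0
      rw [wt_mk hval y hy0]
      exact h0 _ hy)
    (fun t => hG _ hval.rval t) d hd1 hd (fun s => hilb (VA C m1) hval.rval.P s) (hlow r')
    (fun a ha => hilb_eq_finrank fun x hx hxP => by
      by_contra hx0
      have h1 := ha ⟨x, hx⟩ (fun h => hx0 (congrArg Subtype.val h))
      have h2 : 0 < hval.ext x := hxP hx0
      have h3 : hval.ext x = 0 := h1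
      linarith)
    (∑ i, e i) (fun t => ∑ i, if hval.ext (b i) < t then e i else 0)
    (fun s k hsk => by
      obtain ⟨t', ht'⟩ := exists_large (m1 := m1) hval.rval T
      have h1 := hcount t' s k hsk
      have e1 : ∀ M ≤ T, (finrank ℂ (VA C m1 M) : ℝ) -
          finrank ℂ ((hval.rval.wt (VA C m1 M)).sub t') = N M := by
        intro M hM
        rw [(ht' M hM).2, Nat.cast_zero, sub_zero]
      rw [e1 T le_rfl] at h1
      have e2 : ∑ j ∈ range k, ((finrank ℂ (VA C m1 (T - (j + 1) * (s + r1))) : ℝ) -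
            finrank ℂ ((hval.rval.wt (VA C m1 (T - (j + 1) * (s + r1)))).sub t')) =
          ∑ j ∈ range k, (N (T - (j + 1) * (s + r1)) : ℝ) :=
        Finset.sum_congr rfl fun j _ => e1 _ (Nat.sub_le _ _)
      rw [e2] at h1
      refine h1.trans (le_of_eq ?_)
      refine Finset.sum_congr rfl fun i _ => ?_
      exact if_pos ((ht' T le_rfl).1 (b i) (b.ne_zero i)))
    (fun t s k hsk => hcount t s k hsk)
    (fun t => Finset.sum_nonneg fun i _ => by split_ifs <;> simp [he i])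
    t ht1 ht2 θ hθ0 hθ
  -- the choice of `α`
  obtain ⟨α0, hα0, hα0'⟩ := exists_alpha_fin (fun i => (Fv T).w (b i)) e
  set α := max α₁ α0 with hαdef
  obtain ⟨hdom, hup⟩ := hα α (le_max_left _ _)
  have hmT : (0 : ℝ) < (m1 : ℝ) * T := by
    have h1 : (0 : ℝ) < m1 := by exact_mod_cast hm.pos
    have h2 : (0 : ℝ) < T := by exact_mod_cast hTd
    positivity
  have hM0 : (0 : ℝ) < (msz x₀ (N T) : ℝ) := by exact_mod_cast hMpos
  have hTL := htl b hb e he α ((1 - θ) / (m1 * T * N T)) (θ / (m1 * T * msz x₀ (N T)))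
    (div_nonneg hθ0 (mul_pos hmT hM0).le) (hα0' α (le_max_right _ _))
  have hS : S.a z m1 T F = R := hmin.a_eq
  have hSF : H43.S (kapT (m1 * T) x₀ θ (finrank ℂ (VA C m1 T))) (Fv T) = 1 := by
    rw [← hmin.S_eq]
    exact S_congr hmin.mono (fun i => (hmin.κpos i).le) fun x hx => (hFw x hx).symm
  set Ev : ℝ := (d : ℝ) / (n + 1) * (1 - ε) * (1 + θ * (H177.gam n x₀ - 1)) with hEv
  have hsumeq : ∑ i with (Fv T).w (b i) < t, e i = ∑ i, if hval.ext (b i) < t then e i else 0 := by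
    rw [Finset.sum_filter]
    rfl
  rw [hsumeq] at hTL
  have hEG : α + Ev ≤ H43.S (kapT (m1 * T) x₀ θ (finrank ℂ (VA C m1 T)))
      (ofBasis b fun i => α * hval.ext (b i) + e i) := by
    have h1 : Ev ≤ H43.S (kapT (m1 * T) x₀ θ (finrank ℂ (VA C m1 T)))
        (ofBasis b fun i => α * hval.ext (b i) + e i) - α * 1 := by
      rw [← hSF]
      exact key.trans hTL
    linarith
  have hfin := hmin.K3 hdom hup hEG
  have hdR : (0 : ℝ) < d := by exact_mod_cast hd1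
  have hnR : (0 : ℝ) < (n : ℝ) + 1 := by positivity
  have h1 : R * Ev = (d / (n + 1)) * (R * (1 + θ * (H177.gam n x₀ - 1)) * (1 - ε)) := by
    rw [hEv]; ring
  rw [h1] at hfin
  have h2 : R * (1 + θ * (H177.gam n x₀ - 1)) * (1 - ε) ≤ n + 1 := by
    have h3 : (d : ℝ) / (n + 1) * (R * (1 + θ * (H177.gam n x₀ - 1)) * (1 - ε)) ≤
        (d : ℝ) / (n + 1) * (n + 1) := by
      refine hfin.trans (le_of_eq ?_)
      field_simp
    exact le_of_mul_le_mul_left h3 (by positivity)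
  exact h2

end Vale.Agent.P271.H507
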