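import Vale.Agent.P271.H507.K3W
import Vale.Agent.P271.H783.K3Final
import Vale.Agent.P271.H783.CenInst
import Vale.Agent.P271.Grow.Cone
import Vale.Agent.P271.Main.FreeInst

/-!
# P271 / K3WStat : the statement `K3WStat` for every system of exponent sets (helper507)
-/

set_option linter.all false

namespace Vale.Agent.P271.H507

open Module Finset Filter Topology
open Vale.Agent.P271.Filt Vale.Agent.P271.Filt.Wt Vale.Agent.P271.H43 Vale.Agent.P271.Sch
  Vale.Agent.P271.Inst Vale.Agent.P271.Zorn Vale.Agent.P271.H84 Vale.Agent.P271.Main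
  Vale.Agent.P271.Chain Vale.Agent.P271.Deg Vale.Agent.P271.Ver

variable {n : ℕ} {C : GCone n} {m1 : ℕ}

/-- **GROW** for all valuations of the cone. -/
theorem exists_growV (hn : 1 ≤ n) (z : NVPt C) (hv : VerOK C.A m1) :
    ∃ r : ℕ, GrowV C m1 r := by
  obtain ⟨r, hr⟩ := Grow.growOk_VA hv z.2 hn
  refine ⟨r, fun v h t => ?_⟩
  refine hr r le_rfl (fun M => h.wt (VA C m1 M)) (fun M M' g s t' ht hg hs => ?_)
    (fun M x hx => ?_) t
  · change v (t' : C.R) = v (s : C.R) + v (g : C.R)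
    rw [ht, h.mul _ _ (fun h0 => hg (Subtype.ext h0)) (fun h0 => hs (Subtype.ext h0)), add_comm]
  · exact h.nonneg _ fun h0 => hx (Subtype.ext h0)

/-- **K3OUT** for the cone. -/
theorem exists_k3Fin [∀ k, FiniteDimensional ℂ (C.A k)] (hG : H741.GlobGen) (hn : 1 ≤ n)
    (S : CSys C) (z : NVPt C) (hm1 : 1 ≤ m1) : ∃ r1 : ℕ, K3Fin S z m1 r1 := by
  obtain ⟨r0, h0⟩ := K3.k3Fin S (K3.cenStat' hG hn S) z hm1
  exact ⟨r0, fun T v c hs hv0 hv _ => h0 r0 le_rfl T v c hs hv0 hv⟩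

/-- **The statement `K3WStat`** (field `k3w` of `FreeBlocks`) from the global generation of
multiplier ideals. -/
theorem k3wStat [∀ k, FiniteDimensional ℂ (C.A k)] (hG : H741.GlobGen) (hn : 1 ≤ n) (S : CSys C)
    (z : NVPt C) (hv : VerOK C.A m1) : K3WStat S z m1 := by
  obtain ⟨r, hr⟩ := exists_growV hn z hv
  obtain ⟨r1, hr1⟩ := exists_k3Fin hG hn S z hv.pos
  exact k3w S z hv hn hr1 hr

end Vale.Agent.P271.H507
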